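import Claimed.Agent.R256.Nm.Fit.Est
import Claimed.Agent.R256.Nm.Geo.Main

/-!
# Row 256, unit NM, sub-block NM-FIT, file 2: A TEST LISTS THE NAMES OF THE RAW DATA WHICH FIT IT      (helper51; prefix `nm_`)

PAPER-FREE.   EXITS:
* `nm_fit_list`   : a family `𝒳` of raw data which fit ONE test `Q`, with one `kb`, whose angular bins differ by `≤ KX`, has `≤ 10^11 M^9 (KX + 1)` names.
* `nm_fit_list_X` : `(Q, kb, [X]_v)` lists the name (`≤ 10^11 M^9`).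
* `nm_fit_list_Q` : `(Q, kb)` lists the name if `|X - Q.x| ≤ M s^v` (`≤ 10^12 M^10`).
PLAN: as in `Geo/Main.lean`: order `nmVec`; two raw data with the same earlier entries have the same known terms (`Fit/Est.lean`), `nm_cell_close` with `b' = b`, `nm_count`.
-/

set_option autoImplicit false

namespace Claimed.Agent.R256

open Classical

noncomputable section

/-- the differences of the entries -/
def nmKfit (M KX : ℝ) : Fin 10 → ℝ :=
  ![0, 4 * M + 1, 4 * M + 1, 8 * M + 5, KX, 8 * M + 5, 36 * M + 17, 16 * M + 5, 40 * M + 13, 108 * M ^ 2 + 1]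

/-- two numbers predicted by the same known term lie in close bins -/
theorem nm_fit_step {s : ℝ} (h0 : 0 < s) (h1 : s < 1) {b r ρ kn K : ℝ} (hx : |r - kn| ≤ K * s ^ b) (hy : |ρ - kn| ≤ K * s ^ b) :
    |((nmCell s b r - nmCell s b ρ : ℤ) : ℝ)| ≤ 4 * K + 1 := by
  have h4 : |r - ρ| ≤ (2 * K) * s ^ b := by
    rw [abs_le] at *
    constructor <;> linarith [hx.1, hx.2, hy.1, hy.2]
  have h5 := nm_cell_close h0 h1 b b h4
  rw [sub_self, neg_zero, Real.rpow_zero] at h5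
  linarith

theorem nm_fe_tau (A : NmAv) (Q : SfTest) {c d : NmNm} (ht : c.t = d.t) : A.ftau Q c = A.ftau Q d := by
  unfold NmAv.ftau NmNm.tv
  rw [ht]

theorem nm_fe_dk (A : NmAv) (Q : SfTest) {c d : NmNm} (hk : c.k = d.k) : A.fdk Q c = A.fdk Q d := by
  unfold NmAv.fdk NmNm.kv
  rw [hk]

theorem nm_fe_dR (A : NmAv) (Q : SfTest) {c d : NmNm} (ht : c.t = d.t) (hk : c.k = d.k) (hR : c.R = d.R) : A.fdR Q c = A.fdR Q d := by
  unfold NmAv.fdR NmNm.Rv NmNm.kv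
  rw [nm_fe_tau A Q ht, hk, hR]

theorem nm_fe_dL (A : NmAv) (Q : SfTest) {c d : NmNm} (hL : c.L = d.L) : A.fdL Q c = A.fdL Q d := by
  unfold NmAv.fdL NmNm.Lv
  rw [hL]

theorem nm_fe_nR (A : NmAv) (Q : SfTest) {c d : NmNm} (ht : c.t = d.t) (hk : c.k = d.k) : A.fnR Q c = A.fnR Q d := by
  unfold NmAv.fnR NmNm.kv
  rw [nm_fe_tau A Q ht, hk]

theorem nm_fe_nB (A : NmAv) (Q : SfTest) {c d : NmNm} (ht : c.t = d.t) (hX : c.X = d.X) : A.fnB Q c = A.fnB Q d := by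
  unfold NmAv.fnB NmNm.Xv
  rw [nm_fe_tau A Q ht, hX]

theorem nm_fe_nL (A : NmAv) (Q : SfTest) {c d : NmNm} (ht : c.t = d.t) (hk : c.k = d.k) (hR : c.R = d.R) (hX : c.X = d.X) :
    A.fnL Q c = A.fnL Q d := by
  unfold NmAv.fnL NmNm.Xv
  rw [nm_fe_dR A Q ht hk hR, nm_fe_dk A Q hk, hX]

theorem nm_fe_nY (A : NmAv) (Q : SfTest) {c d : NmNm} (ht : c.t = d.t) (hX : c.X = d.X) : A.fnY Q c = A.fnY Q d := by
  unfold NmAv.fnY NmNm.Xv
  rw [nm_fe_tau A Q ht, hX]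

theorem nm_fe_nN (A : NmAv) (Q : SfTest) {c d : NmNm} (ht : c.t = d.t) (hk : c.k = d.k) (hR : c.R = d.R) (hX : c.X = d.X)
    (hL : c.L = d.L) : A.fnN Q c = A.fnN Q d := by
  unfold NmAv.fnN NmNm.Xv
  rw [nm_fe_dR A Q ht hk hR, nm_fe_dk A Q hk, nm_fe_dL A Q hL, hX]

theorem nm_fe_nD (A : NmAv) (Q : SfTest) {c d : NmNm} (ht : c.t = d.t) (hk : c.k = d.k) (hR : c.R = d.R) (hX : c.X = d.X)
    (hL : c.L = d.L) (hN : c.N = d.N) : A.fnD Q c = A.fnD Q d := by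
  unfold NmAv.fnD NmNm.Xv NmNm.Nv
  rw [nm_fe_tau A Q ht, nm_fe_dR A Q ht hk hR, nm_fe_dk A Q hk, nm_fe_dL A Q hL, hX, hN]

/-- **two raw data which fit one test** -/
theorem nm_fit_two {A : NmAv} {W : NmFw} (hA : A.Ok W) {Q : SfTest} {x y : NmRaw} (hx : NmFit A W Q x) (hy : NmFit A W Q y)
    (hkb : x.kb = y.kb) {KX : ℝ} (hX : |((nmCell A.s A.v x.z.X - nmCell A.s A.v y.z.X : ℤ) : ℝ)| ≤ KX) (i : Fin 10)
    (hp : ∀ j < i, nmVec (A.nm x) j = nmVec (A.nm y) j) :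
    |((nmVec (A.nm x) i - nmVec (A.nm y) i : ℤ) : ℝ)| ≤ nmKfit W.M KX i := by
  have h0 := hA.s0
  have h1 := hA.s1
  have hM := hA.M1
  fin_cases i
  · show |(((A.nm x).kb - (A.nm y).kb : ℤ) : ℝ)| ≤ 0
    have e : (A.nm x).kb = (A.nm y).kb := hkb
    rw [e]
    simp
  · show |(((A.nm x).t - (A.nm y).t : ℤ) : ℝ)| ≤ 4 * W.M + 1
    exact nm_fit_step h0 h1 hx.time hy.time
  · show |(((A.nm x).k - (A.nm y).k : ℤ) : ℝ)| ≤ 4 * W.M + 1
    by_cases hc : A.q.ds.cut = NmCut.slope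
    · exact nm_fit_step h0 h1 (hx.k.trans (hA.hk hc)) (hy.k.trans (hA.hk hc))
    · have e : (A.nm x).k = (A.nm y).k := by
        show nmCell A.s (A.q.ds.b A.a - A.a) (x.kraw A.q) = nmCell A.s (A.q.ds.b A.a - A.a) (y.kraw A.q)
        rw [nm_ge_kraw x A.q hc, nm_ge_kraw y A.q hc]
      rw [e]
      simp
      linarith
  · show |(((A.nm x).R - (A.nm y).R : ℤ) : ℝ)| ≤ 8 * W.M + 5
    have pt : (A.nm x).t = (A.nm y).t := hp 1 (by decide)
    have pk : (A.nm x).k = (A.nm y).k := hp 2 (by decide)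
    by_cases hc : A.q.ds.cut = NmCut.none
    · have e : (A.nm x).R = (A.nm y).R := by
        show nmCell A.s (A.q.ds.b A.a) (x.Rraw A.s A.q A.a) = nmCell A.s (A.q.ds.b A.a) (y.Rraw A.s A.q A.a)
        have e1 : x.Rraw A.s A.q A.a = 0 := by unfold NmRaw.Rraw; rw [hc]
        have e2 : y.Rraw A.s A.q A.a = 0 := by unfold NmRaw.Rraw; rw [hc]
        rw [e1, e2]
      rw [e]
      simp
      linarith
    · have hy' := nm_fit_R hA hy hc
      rw [← nm_fe_nR A Q pt pk] at hy'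
      exact (nm_fit_step h0 h1 (nm_fit_R hA hx hc) hy').trans (by linarith)
  · exact hX
  · show |(((A.nm x).B - (A.nm y).B : ℤ) : ℝ)| ≤ 8 * W.M + 5
    have pt : (A.nm x).t = (A.nm y).t := hp 1 (by decide)
    have pX : (A.nm x).X = (A.nm y).X := hp 4 (by decide)
    have hy' := nm_fit_B hA hy
    rw [← nm_fe_nB A Q pt pX] at hy'
    exact (nm_fit_step h0 h1 (nm_fit_B hA hx) hy').trans (by linarith)
  · show |(((A.nm x).L - (A.nm y).L : ℤ) : ℝ)| ≤ 36 * W.M + 17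
    have pt : (A.nm x).t = (A.nm y).t := hp 1 (by decide)
    have pk : (A.nm x).k = (A.nm y).k := hp 2 (by decide)
    have pR : (A.nm x).R = (A.nm y).R := hp 3 (by decide)
    have pX : (A.nm x).X = (A.nm y).X := hp 4 (by decide)
    have hy' := nm_fit_L hA hy
    rw [← nm_fe_nL A Q pt pk pR pX] at hy'
    exact (nm_fit_step h0 h1 (nm_fit_L hA hx) hy').trans (by linarith)
  · show |(((A.nm x).Y - (A.nm y).Y : ℤ) : ℝ)| ≤ 16 * W.M + 5
    have pt : (A.nm x).t = (A.nm y).t := hp 1 (by decide)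
    have pX : (A.nm x).X = (A.nm y).X := hp 4 (by decide)
    have hy' := nm_fit_Y hA hy
    rw [← nm_fe_nY A Q pt pX] at hy'
    exact (nm_fit_step h0 h1 (nm_fit_Y hA hx) hy').trans (by linarith)
  · show |(((A.nm x).N - (A.nm y).N : ℤ) : ℝ)| ≤ 40 * W.M + 13
    have pt : (A.nm x).t = (A.nm y).t := hp 1 (by decide)
    have pk : (A.nm x).k = (A.nm y).k := hp 2 (by decide)
    have pR : (A.nm x).R = (A.nm y).R := hp 3 (by decide)
    have pX : (A.nm x).X = (A.nm y).X := hp 4 (by decide)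
    have pL : (A.nm x).L = (A.nm y).L := hp 6 (by decide)
    have hy' := nm_fit_N hA hy
    rw [← nm_fe_nN A Q pt pk pR pX pL] at hy'
    exact (nm_fit_step h0 h1 (nm_fit_N hA hx) hy').trans (by linarith)
  · show |(((A.nm x).D - (A.nm y).D : ℤ) : ℝ)| ≤ 108 * W.M ^ 2 + 1
    have pt : (A.nm x).t = (A.nm y).t := hp 1 (by decide)
    have pk : (A.nm x).k = (A.nm y).k := hp 2 (by decide)
    have pR : (A.nm x).R = (A.nm y).R := hp 3 (by decide)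
    have pX : (A.nm x).X = (A.nm y).X := hp 4 (by decide)
    have pL : (A.nm x).L = (A.nm y).L := hp 6 (by decide)
    have pN : (A.nm x).N = (A.nm y).N := hp 8 (by decide)
    have hy' := nm_fit_D hA hy
    rw [← nm_fe_nD A Q pt pk pR pX pL pN] at hy'
    exact (nm_fit_step h0 h1 (nm_fit_D hA hx) hy').trans (by linarith)

/-- the product of the list sizes -/
theorem nm_fit_prod {M KX : ℝ} (hM : 1 ≤ M) (hK : 0 ≤ KX) : ∏ i, (nmKfit M KX i + 1) ≤ 10 ^ 11 * M ^ 9 * (KX + 1) := by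
  have hM0 : 0 ≤ M := by linarith
  have hMM : M ≤ M ^ 2 := by nlinarith
  have e : ∏ i, (nmKfit M KX i + 1) = (4 * M + 2) * (4 * M + 2) * (8 * M + 6) * (8 * M + 6) * (36 * M + 18) * (16 * M + 6)
      * (40 * M + 14) * (108 * M ^ 2 + 2) * (KX + 1) := by
    simp only [Fin.prod_univ_succ, nmKfit]
    simp
    ring
  rw [e]
  calc (4 * M + 2) * (4 * M + 2) * (8 * M + 6) * (8 * M + 6) * (36 * M + 18) * (16 * M + 6) * (40 * M + 14) * (108 * M ^ 2 + 2) * (KX + 1)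
      ≤ (6 * M) * (6 * M) * (14 * M) * (14 * M) * (54 * M) * (22 * M) * (54 * M) * (110 * M ^ 2) * (KX + 1) := by
        gcongr <;> linarith
    _ = 49792216320 * (M ^ 9 * (KX + 1)) := by ring
    _ ≤ 10 ^ 11 * (M ^ 9 * (KX + 1)) := by
        apply mul_le_mul_of_nonneg_right (by norm_num) (by positivity)
    _ = 10 ^ 11 * M ^ 9 * (KX + 1) := by ring

theorem nm_fit_K_nonneg {M KX : ℝ} (hM : 1 ≤ M) (hK : 0 ≤ KX) (i : Fin 10) : 0 ≤ nmKfit M KX i := by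
  have hM0 : 0 ≤ M := by linarith
  fin_cases i
  · exact le_rfl
  · show 0 ≤ 4 * M + 1
    positivity
  · show 0 ≤ 4 * M + 1
    positivity
  · show 0 ≤ 8 * M + 5
    positivity
  · exact hK
  · show 0 ≤ 8 * M + 5
    positivity
  · show 0 ≤ 36 * M + 17
    positivity
  · show 0 ≤ 16 * M + 5
    positivity
  · show 0 ≤ 40 * M + 13
    positivity
  · show 0 ≤ 108 * M ^ 2 + 1
    positivity

/-- **a test lists the names** -/
theorem nm_fit_list {A : NmAv} {W : NmFw} (hA : A.Ok W) (Q : SfTest) (kb : ℤ) {KX : ℝ} (hK : 0 ≤ KX) (𝒳 : Set NmRaw)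
    (h1 : ∀ x ∈ 𝒳, NmFit A W Q x ∧ x.kb = kb)
    (h2 : ∀ x ∈ 𝒳, ∀ y ∈ 𝒳, |((nmCell A.s A.v x.z.X - nmCell A.s A.v y.z.X : ℤ) : ℝ)| ≤ KX) :
    ∃ S : Finset NmNm, (S.card : ℝ) ≤ 10 ^ 11 * W.M ^ 9 * (KX + 1) ∧ ∀ x ∈ 𝒳, A.nm x ∈ S := by
  obtain ⟨S, hS, hmem⟩ := nm_aux_list (nmKfit W.M KX) (nm_fit_K_nonneg hA.M1 hK) {c | ∃ x ∈ 𝒳, A.nm x = c} (by
    rintro _ ⟨x, hx, rfl⟩ _ ⟨y, hy, rfl⟩ i hp
    exact nm_fit_two hA (h1 x hx).1 (h1 y hy).1 ((h1 x hx).2.trans (h1 y hy).2.symm) (h2 x hx y hy) i hp)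
  exact ⟨S, hS.trans (nm_fit_prod hA.M1 hK), fun x hx => hmem _ ⟨x, hx, rfl⟩⟩

theorem nm_fit_list_X {A : NmAv} {W : NmFw} (hA : A.Ok W) (Q : SfTest) (kb n : ℤ) :
    ∃ S : Finset NmNm, (S.card : ℝ) ≤ 10 ^ 11 * W.M ^ 9 ∧
      ∀ x, NmFit A W Q x → x.kb = kb → nmCell A.s A.v x.z.X = n → A.nm x ∈ S := by
  obtain ⟨S, hS, hmem⟩ := nm_fit_list hA Q kb (le_refl (0 : ℝ)) {x | NmFit A W Q x ∧ x.kb = kb ∧ nmCell A.s A.v x.z.X = n}
    (fun x hx => ⟨hx.1, hx.2.1⟩) (fun x hx y hy => by rw [hx.2.2, hy.2.2]; simp)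
  refine ⟨S, hS.trans (by rw [zero_add, mul_one]), fun x a b c => hmem x ⟨a, b, c⟩⟩

theorem nm_fit_list_Q {A : NmAv} {W : NmFw} (hA : A.Ok W) (Q : SfTest) (kb : ℤ) :
    ∃ S : Finset NmNm, (S.card : ℝ) ≤ 10 ^ 12 * W.M ^ 10 ∧
      ∀ x, NmFit A W Q x → x.kb = kb → |x.z.X - Q.x| ≤ W.M * A.s ^ A.v → A.nm x ∈ S := by
  have hM := hA.M1
  obtain ⟨S, hS, hmem⟩ := nm_fit_list hA Q kb (KX := 4 * W.M + 1) (by linarith)
    {x | NmFit A W Q x ∧ x.kb = kb ∧ |x.z.X - Q.x| ≤ W.M * A.s ^ A.v}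
    (fun x hx => ⟨hx.1, hx.2.1⟩) (fun x hx y hy => nm_fit_step hA.s0 hA.s1 hx.2.2 hy.2.2)
  refine ⟨S, hS.trans ?_, fun x a b c => hmem x ⟨a, b, c⟩⟩
  have h9 : 0 ≤ W.M ^ 9 := by positivity
  calc 10 ^ 11 * W.M ^ 9 * (4 * W.M + 1 + 1) ≤ 10 ^ 11 * W.M ^ 9 * (10 * W.M) :=
        mul_le_mul_of_nonneg_left (by linarith) (by positivity)
    _ = 10 ^ 12 * W.M ^ 10 := by ring

theorem nm_fit_main_eqns_cite : True := by
  have := @nmKfit.eq_1
  trivial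

end

end Claimed.Agent.R256
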