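import Claimed.Agent.R256.Nm.Geo.Est

/-!
# Row 256, unit NM, sub-block NM-FIT (geometry of Prop. names:canonical-entropy (i),(iii),(iv), 04-canonical-names.tex l.246-306), file 1: A TEST PREDICTS A NAME, ESTIMATES      (helper51; prefix `nm_`)

PAPER-FREE.   ONE raw datum `x : NmRaw`, ONE test `Q : SfTest` (time `Q.T`, base centre `x b y`, shear `c d al be K`; the widths `Q.r`, `Q.f` are NOT read), a parameter `(a, v)`, widths `W : NmFw`.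
`NmFit W s π q a v Q x` = the ray of `x` lies in the test `Q` (widths `W.lam`, `W.mu` in the base, `M s^(w-g)`, `M s^(a+w-g)` in the normal coordinates) and the curvature data / the derivative of `x` are those of `Q` up to `W.sg`, `W.kp`, `M s^l`.
For every entry of the name `c = x.name s π q a v`, in the order `kb, t, k, R, X, B, L, Y, N, D`, with `r` = the real number whose bin is the entry:

      `| r - kn Q c | ≤ K(M) * s ^ depth`,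

where the KNOWN term reads `Q` and EARLIER entries of `c` only.   (`Fit/Main.lean`: so `(Q, kb, [X]_v)` lists the name.)

Notation of the plans:  `T = Q.T`, `τ = T - t_a` (`|τ| ≤ (M+1) s^a`),  `B_T`, `Y_T`, `D_T` the ray at `T`,  `Δk = Q.K - k_a`,  `ΔR = Q.be - R_a - τ k_a`,  `ΔL = Q.al - L`,  `x_v` the representative of `X`,
`ξ = X - x_v`, `ζ = B_T - Q.b`, `υ = (Y_T - 2 x_v B_T) - (Q.y - 2 x_v Q.b) = (Y_T - Q.y - 2 X ζ) + 2 ξ ζ`,   `|ξ| ≤ s^v`, `|ζ| ≤ lam`, `|υ| ≤ mu + 2 s^v lam`;   `σ = sg + (M+2) cs`, `κ = kp + cs s^(-a)` bound `ΔR`, `Δk`  (`cs = s^(b a)`, `0` without curvature cut).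
IDENTITIES (`ring` after unfolding `Bt`, `Yt`, `Dt`, `Pd`):
* `B_{t_a} = B_T - τ X`,  `Y_{t_a} = Y_T - τ X²`,  `D_{t_a} = D_T - τ N`
* `Lraw = Q.al + 2 ΔR X - 2 Δk B_T + (P - Q.Pd z)`
* `Y_{t_a} - 2 x_v B_{t_a} = (Q.y - 2 x_v Q.b + τ x_v²) + υ - τ ξ²`
* `Nres = Q.c + ΔL X + ΔR X² + Δk (Y_T - 2 X B_T) + e_N`,   `e_N` = the velocity expression of the test
* `Dres = -τ Nres + Q.d + ΔL B_T + ΔR Y_T - Δk B_T² + e_D`,   `e_D` = the position expression of the test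
-/

set_option autoImplicit false

namespace Claimed.Agent.R256

open Classical

noncomputable section

/-- widths of a fit: loss `M`, position width `lam`, quadratic width `mu`, curvature discrepancies `sg`, `kp` -/
structure NmFw where
  M : ℝ
  lam : ℝ
  mu : ℝ
  sg : ℝ
  kp : ℝ

/-- a parameter -/
structure NmAv where
  s : ℝ
  π : SfPar
  q : NmQ
  a : ℝ
  v : ℝ

namespace NmAv

variable (A : NmAv)

/-- the curvature scale -/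
def cs : ℝ :=
  match A.q.ds.cut with
  | NmCut.none => 0
  | _ => A.s ^ (A.q.ds.b A.a)

/-- `l` -/
def l : ℝ := A.q.l A.π A.a A.v
/-- `w` -/
def w : ℝ := A.q.w A.π A.a A.v
/-- the name -/
def nm (x : NmRaw) : NmNm := x.name A.s A.π A.q A.a A.v

/-- admissible widths -/
structure Ok (W : NmFw) : Prop where
  s0 : 0 < A.s
  s1 : A.s < 1
  q : A.q.Ok A.π
  M1 : 1 ≤ W.M
  lam0 : 0 ≤ W.lam
  mu0 : 0 ≤ W.mu
  sg0 : 0 ≤ W.sg
  kp0 : 0 ≤ W.kp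
  h1 : W.lam ≤ W.M * A.s ^ (A.a + A.v)
  h2 : W.mu ≤ W.M * A.s ^ (A.a + 2 * A.v)
  h3 : W.sg * A.s ^ A.v ≤ W.M * A.s ^ A.l
  h4 : W.kp * W.lam ≤ W.M * A.s ^ A.l
  h6 : W.kp * W.mu ≤ W.M * A.s ^ (A.w - A.q.g)
  hR : A.q.ds.cut ≠ NmCut.none → W.sg ≤ W.M * A.s ^ (A.q.ds.b A.a)
  hk : A.q.ds.cut = NmCut.slope → W.kp ≤ W.M * A.s ^ (A.q.ds.b A.a - A.a)

end NmAv

/-- the curvature of the raw datum at the time `T` (as the display reads it) -/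
def NmRaw.RrawAt (x : NmRaw) (q : NmQ) (T : ℝ) : ℝ :=
  match q.ds.cut with
  | NmCut.slope => x.be + (T - x.Te) * x.K
  | NmCut.const => x.be
  | NmCut.none => 0

/-- **the raw datum `x` fits the test `Q`** -/
structure NmFit (A : NmAv) (W : NmFw) (Q : SfTest) (x : NmRaw) : Prop where
  time : |x.T - Q.T| ≤ W.M * A.s ^ A.a
  B : |x.z.Bt Q.T - Q.b| ≤ W.lam
  Y : |x.z.Yt Q.T - Q.y - 2 * x.z.X * (x.z.Bt Q.T - Q.b)| ≤ W.mu
  R : |x.RrawAt A.q Q.T - Q.be| ≤ W.sg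
  k : |x.kraw A.q - Q.K| ≤ W.kp
  P : |x.P - Q.Pd x.z| ≤ W.M * A.s ^ A.l
  N : |x.z.N - Q.c - Q.al * x.z.X - Q.be * x.z.X ^ 2 - Q.K * (x.z.Yt Q.T - 2 * x.z.X * x.z.Bt Q.T)| ≤ W.M * A.s ^ (A.w - A.q.g)
  D : |x.z.Dt Q.T - Q.d - Q.al * x.z.Bt Q.T - Q.be * x.z.Yt Q.T + Q.K * x.z.Bt Q.T ^ 2| ≤ W.M * A.s ^ (A.a + A.w - A.q.g)

namespace NmAv

variable (A : NmAv) (Q : SfTest) (c : NmNm)

/-- `τ = Q.T - t_a` -/
def ftau : ℝ := Q.T - c.tv A.s A.a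
/-- `Δk` -/
def fdk : ℝ := Q.K - c.kv A.s A.q A.a
/-- `ΔR` (both at the time `Q.T`) -/
def fdR : ℝ := Q.be - c.Rv A.s A.q A.a - A.ftau Q c * c.kv A.s A.q A.a
/-- `ΔL` -/
def fdL : ℝ := Q.al - c.Lv A.s A.π A.q A.a A.v

def fnR : ℝ := Q.be - A.ftau Q c * c.kv A.s A.q A.a
def fnB : ℝ := Q.b - A.ftau Q c * c.Xv A.s A.v
def fnL : ℝ := Q.al + 2 * A.fdR Q c * c.Xv A.s A.v - 2 * A.fdk Q c * Q.b
def fnY : ℝ := Q.y - 2 * c.Xv A.s A.v * Q.b + A.ftau Q c * c.Xv A.s A.v ^ 2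
def fnN : ℝ := Q.c + A.fdL Q c * c.Xv A.s A.v + A.fdR Q c * c.Xv A.s A.v ^ 2 + A.fdk Q c * (Q.y - 2 * c.Xv A.s A.v * Q.b)
def fnD : ℝ := -(A.ftau Q c * c.Nv A.s A.π A.q A.a A.v) + Q.d + A.fdL Q c * Q.b
  + A.fdR Q c * (Q.y - 2 * c.Xv A.s A.v * Q.b) + 2 * A.fdR Q c * c.Xv A.s A.v * Q.b - A.fdk Q c * Q.b ^ 2

end NmAv

theorem nm_fcs_slope {A : NmAv} (h : A.q.ds.cut = NmCut.slope) : A.cs = A.s ^ (A.q.ds.b A.a) := by
  unfold NmAv.cs; rw [h]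

theorem nm_fcs_const {A : NmAv} (h : A.q.ds.cut = NmCut.const) : A.cs = A.s ^ (A.q.ds.b A.a) := by
  unfold NmAv.cs; rw [h]

theorem nm_fcs_none {A : NmAv} (h : A.q.ds.cut = NmCut.none) : A.cs = 0 := by
  unfold NmAv.cs; rw [h]

/-- `|kraw - k_a| ≤ cs s^(-a)` -/
theorem nm_fcs_ka {A : NmAv} (h0 : 0 < A.s) (h1 : A.s < 1) (x : NmRaw) :
    |x.kraw A.q - x.ka A.s A.q A.a| ≤ A.cs * A.s ^ (-A.a) := by
  rcases hcut : A.q.ds.cut with _ | _ | _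
  · rw [nm_fcs_slope hcut, ← Real.rpow_add h0, ← sub_eq_add_neg]
    exact nm_rep_abs h0 h1 _ _
  · have e : x.kraw A.q = 0 := by unfold NmRaw.kraw; rw [hcut]
    have e2 : x.ka A.s A.q A.a = 0 := by unfold NmRaw.ka; rw [e, nm_rep_zero]
    rw [e, e2, sub_zero, abs_zero, nm_fcs_const hcut]
    have := Real.rpow_pos_of_pos h0 (A.q.ds.b A.a)
    have := Real.rpow_pos_of_pos h0 (-A.a)
    positivity
  · have e : x.kraw A.q = 0 := by unfold NmRaw.kraw; rw [hcut]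
    have e2 : x.ka A.s A.q A.a = 0 := by unfold NmRaw.ka; rw [e, nm_rep_zero]
    rw [e, e2, sub_zero, abs_zero, nm_fcs_none hcut, zero_mul]

/-- `|Rraw - R_a| ≤ cs` -/
theorem nm_fcs_Ra {A : NmAv} (h0 : 0 < A.s) (h1 : A.s < 1) (x : NmRaw) :
    |x.Rraw A.s A.q A.a - x.Ra A.s A.q A.a| ≤ A.cs := by
  rcases hcut : A.q.ds.cut with _ | _ | _
  · rw [nm_fcs_slope hcut]
    exact nm_rep_abs h0 h1 _ _
  · rw [nm_fcs_const hcut]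
    exact nm_rep_abs h0 h1 _ _
  · have e : x.Rraw A.s A.q A.a = 0 := by unfold NmRaw.Rraw; rw [hcut]
    have e2 : x.Ra A.s A.q A.a = 0 := by unfold NmRaw.Ra; rw [e, nm_rep_zero]
    rw [e, e2, sub_zero, abs_zero, nm_fcs_none hcut]

/-- the curvature at the time `T` and at `t_a` -/
theorem nm_fcs_RrawAt (A : NmAv) (x : NmRaw) (T : ℝ) :
    x.RrawAt A.q T = x.Rraw A.s A.q A.a + (T - x.ta A.s A.a) * x.kraw A.q := by
  unfold NmRaw.RrawAt NmRaw.Rraw NmRaw.kraw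
  rcases hcut : A.q.ds.cut with _ | _ | _ <;> simp only <;> ring

/-! ## the estimates -/

section est

variable {A : NmAv} {W : NmFw} (hA : A.Ok W) {Q : SfTest} {x : NmRaw} (hx : NmFit A W Q x)

include hA

theorem nm_fcs_nonneg : 0 ≤ A.cs := by
  rcases hcut : A.q.ds.cut with _ | _ | _
  · rw [nm_fcs_slope hcut]; exact (Real.rpow_pos_of_pos hA.s0 _).le
  · rw [nm_fcs_const hcut]; exact (Real.rpow_pos_of_pos hA.s0 _).le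
  · rw [nm_fcs_none hcut]

/-- `cs s^v ≤ s^l` -/
theorem nm_fcs_l : A.cs * A.s ^ A.v ≤ A.s ^ A.l := by
  have h0 := hA.s0
  have h1 := hA.s1
  have hsv : 0 < A.s ^ A.v := Real.rpow_pos_of_pos h0 _
  have hcs : A.cs ≤ A.s ^ (A.q.ds.b A.a) := by
    rcases hcut : A.q.ds.cut with _ | _ | _
    · rw [nm_fcs_slope hcut]
    · rw [nm_fcs_const hcut]
    · rw [nm_fcs_none hcut]; exact (Real.rpow_pos_of_pos h0 _).le
  have hbv : A.cs * A.s ^ A.v ≤ A.s ^ (A.q.ds.b A.a + A.v) := by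
    rw [Real.rpow_add h0]
    exact mul_le_mul_of_nonneg_right hcs hsv.le
  unfold NmAv.l NmQ.l
  rcases htp : A.q.tp with _ | _ | _
  · exact hbv
  · exact hbv.trans (nm_pow_anti h0 h1 (min_le_left _ _))
  · simp only
    rw [nm_fcs_none (hA.q.pl htp), zero_mul]
    exact (Real.rpow_pos_of_pos h0 _).le

omit hA in
/-- the products of the widths which occur in the errors of `L`, `N`, `D` -/
theorem nm_fit_kit {A : NmAv} {W : NmFw} (hA : A.Ok W) :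
    (W.sg + (W.M + 2) * A.cs) * A.s ^ A.v ≤ (2 * W.M + 2) * A.s ^ A.l ∧
    (W.kp + A.cs * A.s ^ (-A.a)) * W.lam ≤ 2 * W.M * A.s ^ A.l ∧
    (W.kp + A.cs * A.s ^ (-A.a)) * (W.mu + 2 * A.s ^ A.v * W.lam) ≤ 6 * W.M * A.s ^ (A.w - A.q.g) ∧
    A.s ^ A.l * A.s ^ A.v ≤ A.s ^ (A.w - A.q.g) ∧
    W.mu + 2 * A.s ^ A.v * W.lam ≤ 3 * W.M * (A.s ^ A.a * A.s ^ A.v * A.s ^ A.v) ∧
    W.lam ≤ W.M * (A.s ^ A.a * A.s ^ A.v) := by
  have h0 := hA.s0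
  have hM := hA.M1
  have hcs := nm_fcs_nonneg hA
  have hcl := nm_fcs_l hA
  obtain ⟨sa, hsa⟩ : ∃ y, y = A.s ^ A.a := ⟨_, rfl⟩
  obtain ⟨sv, hsv⟩ : ∃ y, y = A.s ^ A.v := ⟨_, rfl⟩
  obtain ⟨sl, hsl⟩ : ∃ y, y = A.s ^ A.l := ⟨_, rfl⟩
  obtain ⟨sw, hsw⟩ : ∃ y, y = A.s ^ (A.w - A.q.g) := ⟨_, rfl⟩
  obtain ⟨ca, hca⟩ : ∃ y, y = A.cs * A.s ^ (-A.a) := ⟨_, rfl⟩
  have sa0 : 0 < sa := hsa ▸ Real.rpow_pos_of_pos h0 _
  have sv0 : 0 < sv := hsv ▸ Real.rpow_pos_of_pos h0 _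
  have sl0 : 0 < sl := hsl ▸ Real.rpow_pos_of_pos h0 _
  have ca0 : 0 ≤ ca := by rw [hca]; exact mul_nonneg hcs (Real.rpow_pos_of_pos h0 _).le
  have hcaa : ca * sa = A.cs := by
    rw [hca, hsa, mul_assoc, ← Real.rpow_add h0, neg_add_cancel, Real.rpow_zero, mul_one]
  have G : sl * sv ≤ sw := by
    rw [hsl, hsv, hsw, ← Real.rpow_add h0]
    refine nm_pow_anti h0 hA.s1 ?_
    have : A.w = A.l + A.v := nm_w_eq A.q A.π A.a A.v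
    linarith [hA.q.g0]
  have H1 : W.lam ≤ W.M * (sa * sv) := by rw [hsa, hsv, ← Real.rpow_add h0]; exact hA.h1
  have H2 : W.mu ≤ W.M * (sa * sv * sv) := by
    rw [hsa, hsv, ← Real.rpow_add h0, ← Real.rpow_add h0]
    have : A.a + A.v + A.v = A.a + 2 * A.v := by ring
    rw [this]; exact hA.h2
  have H3 := hA.h3
  have H4 := hA.h4
  have H6 := hA.h6
  rw [← hsv, ← hsl] at H3 hcl
  rw [← hsl] at H4
  rw [← hsw] at H6
  rw [← hsv, ← hsl, ← hsw, ← hca, ← hsa]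
  have hM0 : 0 ≤ W.M := by linarith
  have K1 : ca * W.lam ≤ W.M * sl := by
    calc ca * W.lam ≤ ca * (W.M * (sa * sv)) := mul_le_mul_of_nonneg_left H1 ca0
      _ = W.M * ((ca * sa) * sv) := by ring
      _ = W.M * (A.cs * sv) := by rw [hcaa]
      _ ≤ W.M * sl := mul_le_mul_of_nonneg_left hcl hM0
  have K2 : ca * W.mu ≤ W.M * sw := by
    calc ca * W.mu ≤ ca * (W.M * (sa * sv * sv)) := mul_le_mul_of_nonneg_left H2 ca0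
      _ = W.M * (((ca * sa) * sv) * sv) := by ring
      _ = W.M * ((A.cs * sv) * sv) := by rw [hcaa]
      _ ≤ W.M * (sl * sv) := by gcongr
      _ ≤ W.M * sw := mul_le_mul_of_nonneg_left G hM0
  refine ⟨?_, ?_, ?_, G, ?_, H1⟩
  · have : (W.M + 2) * (A.cs * sv) ≤ (W.M + 2) * sl := mul_le_mul_of_nonneg_left hcl (by linarith)
    nlinarith
  · nlinarith
  · have a1 : sv * (W.kp * W.lam) ≤ sv * (W.M * sl) := mul_le_mul_of_nonneg_left H4 sv0.le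
    have a2 : sv * (ca * W.lam) ≤ sv * (W.M * sl) := mul_le_mul_of_nonneg_left K1 sv0.le
    have a3 : W.M * (sl * sv) ≤ W.M * sw := mul_le_mul_of_nonneg_left G hM0
    have e : (W.kp + ca) * (W.mu + 2 * sv * W.lam)
        = W.kp * W.mu + 2 * (sv * (W.kp * W.lam)) + ca * W.mu + 2 * (sv * (ca * W.lam)) := by ring
    rw [e]
    nlinarith
  · have : sv * W.lam ≤ sv * (W.M * (sa * sv)) := mul_le_mul_of_nonneg_left H1 sv0.le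
    nlinarith

include hx

/-- `|τ| ≤ (M+1) s^a` -/
theorem nm_fit_tau : |A.ftau Q (A.nm x)| ≤ (W.M + 1) * A.s ^ A.a := by
  have e : A.ftau Q (A.nm x) = (Q.T - x.T) + (x.T - nmRep A.s A.a x.T) := by
    show Q.T - nmRep A.s A.a x.T = _
    ring
  rw [e]
  have h1 := nm_rep_abs hA.s0 hA.s1 A.a x.T
  have h2 := hx.time
  rw [abs_sub_comm] at h2
  have h3 := abs_add_le (Q.T - x.T) (x.T - nmRep A.s A.a x.T)
  linarith

/-- `|Δk| ≤ kp + cs s^(-a)` -/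
theorem nm_fit_dk : |A.fdk Q (A.nm x)| ≤ W.kp + A.cs * A.s ^ (-A.a) := by
  have e : A.fdk Q (A.nm x) = (Q.K - x.kraw A.q) + (x.kraw A.q - x.ka A.s A.q A.a) := by
    show Q.K - x.ka A.s A.q A.a = _
    ring
  rw [e]
  have h1 := nm_fcs_ka hA.s0 hA.s1 (A := A) x
  have h2 := hx.k
  rw [abs_sub_comm] at h2
  have h3 := abs_add_le (Q.K - x.kraw A.q) (x.kraw A.q - x.ka A.s A.q A.a)
  linarith

/-- `|ΔR| ≤ sg + (M+2) cs` -/
theorem nm_fit_dR : |A.fdR Q (A.nm x)| ≤ W.sg + (W.M + 2) * A.cs := by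
  have h0 := hA.s0
  have hτ := nm_fit_tau hA hx
  have hcs := nm_fcs_nonneg hA
  have e : A.fdR Q (A.nm x) = (Q.be - x.RrawAt A.q Q.T) + (x.Rraw A.s A.q A.a - x.Ra A.s A.q A.a)
      + A.ftau Q (A.nm x) * (x.kraw A.q - x.ka A.s A.q A.a) := by
    rw [nm_fcs_RrawAt A x Q.T]
    show Q.be - x.Ra A.s A.q A.a - (Q.T - x.ta A.s A.a) * x.ka A.s A.q A.a
      = _ + (Q.T - x.ta A.s A.a) * (x.kraw A.q - x.ka A.s A.q A.a)
    ring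
  rw [e]
  have h1 := nm_fcs_ka hA.s0 hA.s1 (A := A) x
  have h2 := nm_fcs_Ra hA.s0 hA.s1 (A := A) x
  have h3 := hx.R
  rw [abs_sub_comm] at h3
  have h4 : |A.ftau Q (A.nm x) * (x.kraw A.q - x.ka A.s A.q A.a)| ≤ (W.M + 1) * A.cs := by
    rw [abs_mul]
    calc |A.ftau Q (A.nm x)| * |x.kraw A.q - x.ka A.s A.q A.a|
        ≤ ((W.M + 1) * A.s ^ A.a) * (A.cs * A.s ^ (-A.a)) :=
          mul_le_mul hτ h1 (abs_nonneg _) ((abs_nonneg _).trans hτ)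
      _ = (W.M + 1) * A.cs * (A.s ^ A.a * A.s ^ (-A.a)) := by ring
      _ = (W.M + 1) * A.cs := by rw [← Real.rpow_add h0, add_neg_cancel, Real.rpow_zero, mul_one]
  have h5 := abs_add_le ((Q.be - x.RrawAt A.q Q.T) + (x.Rraw A.s A.q A.a - x.Ra A.s A.q A.a))
    (A.ftau Q (A.nm x) * (x.kraw A.q - x.ka A.s A.q A.a))
  have h6 := abs_add_le (Q.be - x.RrawAt A.q Q.T) (x.Rraw A.s A.q A.a - x.Ra A.s A.q A.a)
  linarith

/-- the entry `R` (only if there is a curvature cut) -/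
theorem nm_fit_R (hc : A.q.ds.cut ≠ NmCut.none) :
    |x.Rraw A.s A.q A.a - A.fnR Q (A.nm x)| ≤ (2 * W.M + 1) * A.s ^ (A.q.ds.b A.a) := by
  have h0 := hA.s0
  have hτ := nm_fit_tau hA hx
  have hcs : A.cs = A.s ^ (A.q.ds.b A.a) := by
    rcases hcut : A.q.ds.cut with _ | _ | _
    · exact nm_fcs_slope hcut
    · exact nm_fcs_const hcut
    · exact absurd hcut hc
  have e : x.Rraw A.s A.q A.a - A.fnR Q (A.nm x) = (x.RrawAt A.q Q.T - Q.be)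
      - A.ftau Q (A.nm x) * (x.kraw A.q - x.ka A.s A.q A.a) := by
    rw [nm_fcs_RrawAt A x Q.T]
    show x.Rraw A.s A.q A.a - (Q.be - (Q.T - x.ta A.s A.a) * x.ka A.s A.q A.a)
      = _ - (Q.T - x.ta A.s A.a) * (x.kraw A.q - x.ka A.s A.q A.a)
    ring
  rw [e]
  have h1 := nm_fcs_ka hA.s0 hA.s1 (A := A) x
  have h3 := (hx.R).trans (hA.hR hc)
  have h4 : |A.ftau Q (A.nm x) * (x.kraw A.q - x.ka A.s A.q A.a)| ≤ (W.M + 1) * A.cs := by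
    rw [abs_mul]
    calc |A.ftau Q (A.nm x)| * |x.kraw A.q - x.ka A.s A.q A.a|
        ≤ ((W.M + 1) * A.s ^ A.a) * (A.cs * A.s ^ (-A.a)) :=
          mul_le_mul hτ h1 (abs_nonneg _) ((abs_nonneg _).trans hτ)
      _ = (W.M + 1) * A.cs * (A.s ^ A.a * A.s ^ (-A.a)) := by ring
      _ = (W.M + 1) * A.cs := by rw [← Real.rpow_add h0, add_neg_cancel, Real.rpow_zero, mul_one]
  rw [hcs] at h4
  have h5 := abs_sub (x.RrawAt A.q Q.T - Q.be) (A.ftau Q (A.nm x) * (x.kraw A.q - x.ka A.s A.q A.a))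
  linarith

theorem nm_fit_B : |x.z.Bt (x.ta A.s A.a) - A.fnB Q (A.nm x)| ≤ (2 * W.M + 1) * A.s ^ (A.a + A.v) := by
  have h0 := hA.s0
  have hτ := nm_fit_tau hA hx
  have e : x.z.Bt (x.ta A.s A.a) - A.fnB Q (A.nm x) = (x.z.Bt Q.T - Q.b)
      - A.ftau Q (A.nm x) * (x.z.X - nmRep A.s A.v x.z.X) := by
    show x.z.Bt (x.ta A.s A.a) - (Q.b - (Q.T - x.ta A.s A.a) * nmRep A.s A.v x.z.X)
      = _ - (Q.T - x.ta A.s A.a) * (x.z.X - nmRep A.s A.v x.z.X)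
    unfold SfRay.Bt
    ring
  rw [e]
  have h1 := nm_rep_abs hA.s0 hA.s1 A.v x.z.X
  have h3 := (hx.B).trans hA.h1
  have h4 : |A.ftau Q (A.nm x) * (x.z.X - nmRep A.s A.v x.z.X)| ≤ (W.M + 1) * A.s ^ (A.a + A.v) := by
    rw [abs_mul, Real.rpow_add h0, ← mul_assoc]
    exact mul_le_mul hτ h1 (abs_nonneg _) ((abs_nonneg _).trans hτ)
  have h5 := abs_sub (x.z.Bt Q.T - Q.b) (A.ftau Q (A.nm x) * (x.z.X - nmRep A.s A.v x.z.X))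
  linarith

/-- error `2 ΔR ξ - 2 Δk ζ + (P - Q.Pd z)` -/
theorem nm_fit_L : |x.Lraw A.s A.q A.a - A.fnL Q (A.nm x)| ≤ (9 * W.M + 4) * A.s ^ A.l := by
  obtain ⟨k1, k2, -, -, -, -⟩ := nm_fit_kit hA
  have hR := nm_fit_dR hA hx
  have hk := nm_fit_dk hA hx
  have hξ := nm_rep_abs hA.s0 hA.s1 A.v x.z.X
  have hζ := hx.B
  have hP := hx.P
  have hsv : 0 < A.s ^ A.v := Real.rpow_pos_of_pos hA.s0 _
  have e : x.Lraw A.s A.q A.a - A.fnL Q (A.nm x) = 2 * (A.fdR Q (A.nm x) * (x.z.X - nmRep A.s A.v x.z.X))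
      - 2 * (A.fdk Q (A.nm x) * (x.z.Bt Q.T - Q.b)) + (x.P - Q.Pd x.z) := by
    show (x.P - 2 * x.Ra A.s A.q A.a * x.z.X + 2 * x.ka A.s A.q A.a * x.z.Bt (x.ta A.s A.a))
        - (Q.al + 2 * (Q.be - x.Ra A.s A.q A.a - (Q.T - x.ta A.s A.a) * x.ka A.s A.q A.a) * nmRep A.s A.v x.z.X
          - 2 * (Q.K - x.ka A.s A.q A.a) * Q.b)
      = 2 * ((Q.be - x.Ra A.s A.q A.a - (Q.T - x.ta A.s A.a) * x.ka A.s A.q A.a) * (x.z.X - nmRep A.s A.v x.z.X))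
        - 2 * ((Q.K - x.ka A.s A.q A.a) * (x.z.Bt Q.T - Q.b)) + (x.P - Q.Pd x.z)
    unfold SfTest.Pd SfRay.Bt
    ring
  rw [e]
  have a1 : |A.fdR Q (A.nm x) * (x.z.X - nmRep A.s A.v x.z.X)| ≤ (2 * W.M + 2) * A.s ^ A.l := by
    rw [abs_mul]
    exact (mul_le_mul hR hξ (abs_nonneg _) ((abs_nonneg _).trans hR)).trans k1
  have a2 : |A.fdk Q (A.nm x) * (x.z.Bt Q.T - Q.b)| ≤ 2 * W.M * A.s ^ A.l := by
    rw [abs_mul]
    exact (mul_le_mul hk hζ (abs_nonneg _) ((abs_nonneg _).trans hk)).trans k2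
  have b1 := abs_le.1 a1
  have b2 := abs_le.1 a2
  have b3 := abs_le.1 hP
  rw [abs_le]
  constructor <;> linarith [b1.1, b1.2, b2.1, b2.2, b3.1, b3.2]

/-- the derivative of the difference of the two shears on the actual ray: `ΔL + 2 ΔR X - 2 Δk B_T = (Lraw - L) - (P - Q.Pd z)` -/
theorem nm_fit_E0 :
    |A.fdL Q (A.nm x) + 2 * A.fdR Q (A.nm x) * x.z.X - 2 * A.fdk Q (A.nm x) * x.z.Bt Q.T| ≤ (W.M + 1) * A.s ^ A.l := by
  have hP := hx.P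
  have hL := nm_rep_abs hA.s0 hA.s1 A.l (x.Lraw A.s A.q A.a)
  have e : A.fdL Q (A.nm x) + 2 * A.fdR Q (A.nm x) * x.z.X - 2 * A.fdk Q (A.nm x) * x.z.Bt Q.T
      = (x.Lraw A.s A.q A.a - nmRep A.s A.l (x.Lraw A.s A.q A.a)) - (x.P - Q.Pd x.z) := by
    show (Q.al - nmRep A.s A.l (x.Lraw A.s A.q A.a))
        + 2 * (Q.be - x.Ra A.s A.q A.a - (Q.T - x.ta A.s A.a) * x.ka A.s A.q A.a) * x.z.X
        - 2 * (Q.K - x.ka A.s A.q A.a) * x.z.Bt Q.T = _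
    unfold NmRaw.Lraw SfTest.Pd SfRay.Bt
    ring
  rw [e]
  have b1 := abs_le.1 hL
  have b3 := abs_le.1 hP
  rw [abs_le]
  constructor <;> linarith [b1.1, b1.2, b3.1, b3.2]

/-- error `υ - τ ξ²` -/
theorem nm_fit_Y :
    |(x.z.Yt (x.ta A.s A.a) - 2 * nmRep A.s A.v x.z.X * x.z.Bt (x.ta A.s A.a)) - A.fnY Q (A.nm x)|
      ≤ (4 * W.M + 1) * A.s ^ (A.a + 2 * A.v) := by
  have h0 := hA.s0
  have hτ := nm_fit_tau hA hx
  have hsv : 0 < A.s ^ A.v := Real.rpow_pos_of_pos h0 _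
  have e : (x.z.Yt (x.ta A.s A.a) - 2 * nmRep A.s A.v x.z.X * x.z.Bt (x.ta A.s A.a)) - A.fnY Q (A.nm x)
      = (x.z.Yt Q.T - Q.y - 2 * x.z.X * (x.z.Bt Q.T - Q.b))
        + 2 * ((x.z.X - nmRep A.s A.v x.z.X) * (x.z.Bt Q.T - Q.b))
        - A.ftau Q (A.nm x) * (x.z.X - nmRep A.s A.v x.z.X) ^ 2 := by
    show (x.z.Yt (x.ta A.s A.a) - 2 * nmRep A.s A.v x.z.X * x.z.Bt (x.ta A.s A.a))
        - (Q.y - 2 * nmRep A.s A.v x.z.X * Q.b + (Q.T - x.ta A.s A.a) * nmRep A.s A.v x.z.X ^ 2)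
      = _ - (Q.T - x.ta A.s A.a) * (x.z.X - nmRep A.s A.v x.z.X) ^ 2
    unfold SfRay.Bt SfRay.Yt
    ring
  rw [e]
  have h1 := nm_rep_abs hA.s0 hA.s1 A.v x.z.X
  have e2 : A.s ^ (A.a + 2 * A.v) = A.s ^ A.a * (A.s ^ A.v * A.s ^ A.v) := by
    rw [← Real.rpow_add h0, ← Real.rpow_add h0]; congr 1; ring
  have e3 : A.s ^ (A.a + A.v) = A.s ^ A.a * A.s ^ A.v := Real.rpow_add h0 _ _
  have h2 := (hx.Y).trans hA.h2
  have h3 : |(x.z.X - nmRep A.s A.v x.z.X) * (x.z.Bt Q.T - Q.b)| ≤ W.M * A.s ^ (A.a + 2 * A.v) := by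
    rw [abs_mul]
    calc |x.z.X - nmRep A.s A.v x.z.X| * |x.z.Bt Q.T - Q.b| ≤ A.s ^ A.v * (W.M * A.s ^ (A.a + A.v)) :=
          mul_le_mul h1 ((hx.B).trans hA.h1) (abs_nonneg _) hsv.le
      _ = W.M * A.s ^ (A.a + 2 * A.v) := by rw [e2, e3]; ring
  have h4 : |A.ftau Q (A.nm x) * (x.z.X - nmRep A.s A.v x.z.X) ^ 2| ≤ (W.M + 1) * A.s ^ (A.a + 2 * A.v) := by
    rw [abs_mul, abs_pow]
    calc |A.ftau Q (A.nm x)| * |x.z.X - nmRep A.s A.v x.z.X| ^ 2 ≤ ((W.M + 1) * A.s ^ A.a) * (A.s ^ A.v) ^ 2 :=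
          mul_le_mul hτ (pow_le_pow_left₀ (abs_nonneg _) h1 2) (by positivity) ((abs_nonneg _).trans hτ)
      _ = (W.M + 1) * A.s ^ (A.a + 2 * A.v) := by rw [e2]; ring
  have h5 := abs_sub ((x.z.Yt Q.T - Q.y - 2 * x.z.X * (x.z.Bt Q.T - Q.b))
        + 2 * ((x.z.X - nmRep A.s A.v x.z.X) * (x.z.Bt Q.T - Q.b))) (A.ftau Q (A.nm x) * (x.z.X - nmRep A.s A.v x.z.X) ^ 2)
  have h6 := abs_add_le (x.z.Yt Q.T - Q.y - 2 * x.z.X * (x.z.Bt Q.T - Q.b))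
        (2 * ((x.z.X - nmRep A.s A.v x.z.X) * (x.z.Bt Q.T - Q.b)))
  have h7 : |2 * ((x.z.X - nmRep A.s A.v x.z.X) * (x.z.Bt Q.T - Q.b))| = 2 * |(x.z.X - nmRep A.s A.v x.z.X) * (x.z.Bt Q.T - Q.b)| := by
    rw [abs_mul]; norm_num
  linarith

/-- error `ξ E0 - ΔR ξ² + Δk υ + e_N` -/
theorem nm_fit_N : |x.Nres A.s A.π A.q A.a A.v - A.fnN Q (A.nm x)| ≤ (10 * W.M + 3) * A.s ^ (A.w - A.q.g) := by
  obtain ⟨k1, k2, k3, G, -, -⟩ := nm_fit_kit hA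
  have hM := hA.M1
  have hR := nm_fit_dR hA hx
  have hk := nm_fit_dk hA hx
  have hE := nm_fit_E0 hA hx
  have hξ := nm_rep_abs hA.s0 hA.s1 A.v x.z.X
  have hζ := hx.B
  have hY := hx.Y
  have hN := hx.N
  have hsv : 0 < A.s ^ A.v := Real.rpow_pos_of_pos hA.s0 _
  have hsl : 0 < A.s ^ A.l := Real.rpow_pos_of_pos hA.s0 _
  have eL : (A.nm x).Lv A.s A.π A.q A.a A.v = x.La A.s A.π A.q A.a A.v := rfl
  have eR : (A.nm x).Rv A.s A.q A.a = x.Ra A.s A.q A.a := rfl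
  have ek : (A.nm x).kv A.s A.q A.a = x.ka A.s A.q A.a := rfl
  have et : (A.nm x).tv A.s A.a = x.ta A.s A.a := rfl
  have eX : (A.nm x).Xv A.s A.v = nmRep A.s A.v x.z.X := rfl
  have e : x.Nres A.s A.π A.q A.a A.v - A.fnN Q (A.nm x)
      = (x.z.X - nmRep A.s A.v x.z.X)
          * (A.fdL Q (A.nm x) + 2 * A.fdR Q (A.nm x) * x.z.X - 2 * A.fdk Q (A.nm x) * x.z.Bt Q.T)
        - A.fdR Q (A.nm x) * (x.z.X - nmRep A.s A.v x.z.X) * (x.z.X - nmRep A.s A.v x.z.X)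
        + A.fdk Q (A.nm x) * ((x.z.Yt Q.T - Q.y - 2 * x.z.X * (x.z.Bt Q.T - Q.b))
            + 2 * ((x.z.X - nmRep A.s A.v x.z.X) * (x.z.Bt Q.T - Q.b)))
        + (x.z.N - Q.c - Q.al * x.z.X - Q.be * x.z.X ^ 2 - Q.K * (x.z.Yt Q.T - 2 * x.z.X * x.z.Bt Q.T)) := by
    simp only [NmAv.fnN, NmAv.fdL, NmAv.fdR, NmAv.fdk, NmAv.ftau, eL, eR, ek, et, eX, NmRaw.Nres, SfRay.Yt, SfRay.Bt]
    ring
  rw [e]
  obtain ⟨ξ, hξd⟩ : ∃ y, y = x.z.X - nmRep A.s A.v x.z.X := ⟨_, rfl⟩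
  obtain ⟨ζ, hζd⟩ : ∃ y, y = x.z.Bt Q.T - Q.b := ⟨_, rfl⟩
  obtain ⟨E0, hE0⟩ : ∃ y, y = A.fdL Q (A.nm x) + 2 * A.fdR Q (A.nm x) * x.z.X - 2 * A.fdk Q (A.nm x) * x.z.Bt Q.T := ⟨_, rfl⟩
  obtain ⟨eY, heY⟩ : ∃ y, y = x.z.Yt Q.T - Q.y - 2 * x.z.X * ζ := ⟨_, rfl⟩
  obtain ⟨eN, heN⟩ : ∃ y, y = x.z.N - Q.c - Q.al * x.z.X - Q.be * x.z.X ^ 2 - Q.K * (x.z.Yt Q.T - 2 * x.z.X * x.z.Bt Q.T) := ⟨_, rfl⟩
  rw [← hζd] at hζ hY ⊢
  rw [← hξd] at hξ ⊢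
  rw [← hE0] at hE ⊢
  rw [← heY] at hY ⊢
  rw [← heN] at hN ⊢
  obtain ⟨dR, hdR⟩ : ∃ y, y = A.fdR Q (A.nm x) := ⟨_, rfl⟩
  obtain ⟨dk, hdk⟩ : ∃ y, y = A.fdk Q (A.nm x) := ⟨_, rfl⟩
  rw [← hdR] at hR ⊢
  rw [← hdk] at hk ⊢
  have a1 : |ξ * E0| ≤ (W.M + 1) * A.s ^ (A.w - A.q.g) := by
    rw [abs_mul]
    calc |ξ| * |E0| ≤ A.s ^ A.v * ((W.M + 1) * A.s ^ A.l) := mul_le_mul hξ hE (abs_nonneg _) hsv.le
      _ = (W.M + 1) * (A.s ^ A.l * A.s ^ A.v) := by ring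
      _ ≤ (W.M + 1) * A.s ^ (A.w - A.q.g) := mul_le_mul_of_nonneg_left G (by linarith)
  have a2 : |dR * ξ * ξ| ≤ (2 * W.M + 2) * A.s ^ (A.w - A.q.g) := by
    rw [abs_mul, abs_mul]
    calc |dR| * |ξ| * |ξ| ≤ ((W.sg + (W.M + 2) * A.cs) * A.s ^ A.v) * A.s ^ A.v :=
          mul_le_mul (mul_le_mul hR hξ (abs_nonneg _) ((abs_nonneg _).trans hR)) hξ (abs_nonneg _)
            (mul_nonneg ((abs_nonneg _).trans hR) hsv.le)
      _ ≤ ((2 * W.M + 2) * A.s ^ A.l) * A.s ^ A.v := mul_le_mul_of_nonneg_right k1 hsv.le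
      _ = (2 * W.M + 2) * (A.s ^ A.l * A.s ^ A.v) := by ring
      _ ≤ (2 * W.M + 2) * A.s ^ (A.w - A.q.g) := mul_le_mul_of_nonneg_left G (by linarith)
  have hυ : |eY + 2 * (ξ * ζ)| ≤ W.mu + 2 * A.s ^ A.v * W.lam := by
    have c1 : |ξ * ζ| ≤ A.s ^ A.v * W.lam := by
      rw [abs_mul]; exact mul_le_mul hξ hζ (abs_nonneg _) hsv.le
    have c2 := abs_add_le eY (2 * (ξ * ζ))
    have c3 : |2 * (ξ * ζ)| = 2 * |ξ * ζ| := by rw [abs_mul]; norm_num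
    linarith
  have a3 : |dk * (eY + 2 * (ξ * ζ))| ≤ 6 * W.M * A.s ^ (A.w - A.q.g) := by
    rw [abs_mul]
    exact (mul_le_mul hk hυ (abs_nonneg _) ((abs_nonneg _).trans hk)).trans k3
  have b1 := abs_le.1 a1
  have b2 := abs_le.1 a2
  have b3 := abs_le.1 a3
  have b4 := abs_le.1 hN
  rw [abs_le]
  constructor <;> linarith [b1.1, b1.2, b2.1, b2.2, b3.1, b3.2, b4.1, b4.2]

omit hA hx in
/-- the real-number estimate behind `nm_fit_D` -/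
theorem nm_fit_D_real {M lam mu σ κ sa sv sl sw τ dn ζ E0 dR dk ξ eY eD : ℝ}
    (hM : 1 ≤ M) (hlam0 : 0 ≤ lam)
    (hsa : 0 < sa) (hsv : 0 < sv) (hsl : 0 < sl) (hsw : 0 < sw)
    (k1 : σ * sv ≤ (2 * M + 2) * sl) (k2 : κ * lam ≤ 2 * M * sl) (G : sl * sv ≤ sw)
    (k5 : mu + 2 * sv * lam ≤ 3 * M * (sa * sv * sv)) (k6 : lam ≤ M * (sa * sv))
    (hτ : |τ| ≤ (M + 1) * sa) (hn : |dn| ≤ sw) (hζ : |ζ| ≤ lam) (hE : |E0| ≤ (M + 1) * sl)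
    (hR : |dR| ≤ σ) (hk : |dk| ≤ κ) (hξ : |ξ| ≤ sv) (hY : |eY| ≤ mu) (hD : |eD| ≤ M * (sa * sw)) :
    |-(τ * dn) + ζ * E0 - 2 * (dR * ξ * ζ) + dk * ζ * ζ + dR * (eY + 2 * (ξ * ζ)) + eD|
      ≤ 27 * M ^ 2 * (sa * sw) := by
  have hM0 : 0 ≤ M := by linarith
  have hσ0 : 0 ≤ σ := (abs_nonneg _).trans hR
  have hκ0 : 0 ≤ κ := (abs_nonneg _).trans hk
  have G' : sa * (sl * sv) ≤ sa * sw := mul_le_mul_of_nonneg_left G hsa.le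
  have a0 : |τ * dn| ≤ (M + 1) * (sa * sw) := by
    rw [abs_mul]
    calc |τ| * |dn| ≤ ((M + 1) * sa) * sw := mul_le_mul hτ hn (abs_nonneg _) (by positivity)
      _ = _ := by ring
  have a1 : |ζ * E0| ≤ M * (M + 1) * (sa * sw) := by
    rw [abs_mul]
    calc |ζ| * |E0| ≤ (M * (sa * sv)) * ((M + 1) * sl) :=
          mul_le_mul (hζ.trans k6) hE (abs_nonneg _) (by positivity)
      _ = M * (M + 1) * (sa * (sl * sv)) := by ring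
      _ ≤ M * (M + 1) * (sa * sw) := mul_le_mul_of_nonneg_left G' (by positivity)
  have a2 : |dR * ξ * ζ| ≤ M * (2 * M + 2) * (sa * sw) := by
    rw [abs_mul, abs_mul]
    calc |dR| * |ξ| * |ζ| ≤ (σ * sv) * (M * (sa * sv)) :=
          mul_le_mul (mul_le_mul hR hξ (abs_nonneg _) hσ0) (hζ.trans k6) (abs_nonneg _) (by positivity)
      _ ≤ ((2 * M + 2) * sl) * (M * (sa * sv)) := mul_le_mul_of_nonneg_right k1 (by positivity)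
      _ = M * (2 * M + 2) * (sa * (sl * sv)) := by ring
      _ ≤ M * (2 * M + 2) * (sa * sw) := mul_le_mul_of_nonneg_left G' (by positivity)
  have a3 : |dk * ζ * ζ| ≤ 2 * M ^ 2 * (sa * sw) := by
    rw [abs_mul, abs_mul]
    calc |dk| * |ζ| * |ζ| ≤ (κ * lam) * (M * (sa * sv)) :=
          mul_le_mul (mul_le_mul hk hζ (abs_nonneg _) hκ0) (hζ.trans k6) (abs_nonneg _) (by positivity)
      _ ≤ (2 * M * sl) * (M * (sa * sv)) := mul_le_mul_of_nonneg_right k2 (by positivity)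
      _ = 2 * M ^ 2 * (sa * (sl * sv)) := by ring
      _ ≤ 2 * M ^ 2 * (sa * sw) := mul_le_mul_of_nonneg_left G' (by positivity)
  have hυ : |eY + 2 * (ξ * ζ)| ≤ 3 * M * (sa * sv * sv) := by
    have c1 : |ξ * ζ| ≤ sv * lam := by
      rw [abs_mul]; exact mul_le_mul hξ hζ (abs_nonneg _) hsv.le
    have c2 := abs_add_le eY (2 * (ξ * ζ))
    have c3 : |2 * (ξ * ζ)| = 2 * |ξ * ζ| := by rw [abs_mul]; norm_num
    linarith
  have a4 : |dR * (eY + 2 * (ξ * ζ))| ≤ 3 * M * (2 * M + 2) * (sa * sw) := by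
    rw [abs_mul]
    calc |dR| * |eY + 2 * (ξ * ζ)| ≤ σ * (3 * M * (sa * sv * sv)) := mul_le_mul hR hυ (abs_nonneg _) hσ0
      _ = (σ * sv) * (3 * M * (sa * sv)) := by ring
      _ ≤ ((2 * M + 2) * sl) * (3 * M * (sa * sv)) := mul_le_mul_of_nonneg_right k1 (by positivity)
      _ = 3 * M * (2 * M + 2) * (sa * (sl * sv)) := by ring
      _ ≤ 3 * M * (2 * M + 2) * (sa * sw) := mul_le_mul_of_nonneg_left G' (by positivity)
  obtain ⟨U, hU⟩ : ∃ y, y = sa * sw := ⟨_, rfl⟩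
  have hU0 : 0 < U := by rw [hU]; positivity
  rw [← hU] at a0 a1 a2 a3 a4 hD ⊢
  have hfin : (M + 1) * U + M * (M + 1) * U + 2 * (M * (2 * M + 2) * U) + 2 * M ^ 2 * U
      + 3 * M * (2 * M + 2) * U + M * U ≤ 27 * M ^ 2 * U := by
    have e1 : (M + 1) * U + M * (M + 1) * U + 2 * (M * (2 * M + 2) * U) + 2 * M ^ 2 * U
      + 3 * M * (2 * M + 2) * U + M * U = (13 * M ^ 2 + 13 * M + 1) * U := by ring
    rw [e1]
    refine mul_le_mul_of_nonneg_right ?_ hU0.le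
    nlinarith
  have b0 := abs_le.1 a0
  have b1 := abs_le.1 a1
  have b2 := abs_le.1 a2
  have b3 := abs_le.1 a3
  have b4 := abs_le.1 a4
  have b5 := abs_le.1 hD
  rw [abs_le]
  constructor <;> linarith [b0.1, b0.2, b1.1, b1.2, b2.1, b2.2, b3.1, b3.2, b4.1, b4.2, b5.1, b5.2]

omit hA hx in
/-- the identity behind `nm_fit_D` -/
theorem nm_fit_D_id (A : NmAv) (Q : SfTest) (x : NmRaw) :
    x.Dres A.s A.π A.q A.a A.v - A.fnD Q (A.nm x)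
      = -(A.ftau Q (A.nm x) * (x.Nres A.s A.π A.q A.a A.v - nmRep A.s (A.w - A.q.g) (x.Nres A.s A.π A.q A.a A.v)))
        + (x.z.Bt Q.T - Q.b)
          * (A.fdL Q (A.nm x) + 2 * A.fdR Q (A.nm x) * x.z.X - 2 * A.fdk Q (A.nm x) * x.z.Bt Q.T)
        - 2 * (A.fdR Q (A.nm x) * (x.z.X - nmRep A.s A.v x.z.X) * (x.z.Bt Q.T - Q.b))
        + A.fdk Q (A.nm x) * (x.z.Bt Q.T - Q.b) * (x.z.Bt Q.T - Q.b)
        + A.fdR Q (A.nm x) * ((x.z.Yt Q.T - Q.y - 2 * x.z.X * (x.z.Bt Q.T - Q.b))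
            + 2 * ((x.z.X - nmRep A.s A.v x.z.X) * (x.z.Bt Q.T - Q.b)))
        + (x.z.Dt Q.T - Q.d - Q.al * x.z.Bt Q.T - Q.be * x.z.Yt Q.T + Q.K * x.z.Bt Q.T ^ 2) := by
  have eL : (A.nm x).Lv A.s A.π A.q A.a A.v = x.La A.s A.π A.q A.a A.v := rfl
  have eR : (A.nm x).Rv A.s A.q A.a = x.Ra A.s A.q A.a := rfl
  have ek : (A.nm x).kv A.s A.q A.a = x.ka A.s A.q A.a := rfl
  have et : (A.nm x).tv A.s A.a = x.ta A.s A.a := rfl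
  have eX : (A.nm x).Xv A.s A.v = nmRep A.s A.v x.z.X := rfl
  have eNv : (A.nm x).Nv A.s A.π A.q A.a A.v = nmRep A.s (A.w - A.q.g) (x.Nres A.s A.π A.q A.a A.v) := rfl
  rw [NmAv.fnD, eNv]
  obtain ⟨n0, hn0⟩ : ∃ y, y = nmRep A.s (A.w - A.q.g) (x.Nres A.s A.π A.q A.a A.v) := ⟨_, rfl⟩
  rw [← hn0]
  simp only [NmAv.fdL, NmAv.fdR, NmAv.fdk, NmAv.ftau, eL, eR, ek, et, eX, NmRaw.Nres, NmRaw.Dres, SfRay.Yt, SfRay.Bt, SfRay.Dt]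
  ring

/-- error `-τ (Nres - n0) + ζ E0 - 2 ΔR ξ ζ + Δk ζ² + ΔR υ + e_D` -/
theorem nm_fit_D : |x.Dres A.s A.π A.q A.a A.v - A.fnD Q (A.nm x)| ≤ 27 * W.M ^ 2 * A.s ^ (A.a + A.w - A.q.g) := by
  obtain ⟨k1, k2, -, G, k5, k6⟩ := nm_fit_kit hA
  have eU : A.s ^ (A.a + A.w - A.q.g) = A.s ^ A.a * A.s ^ (A.w - A.q.g) := by
    rw [← Real.rpow_add hA.s0]; congr 1; ring
  have hD := hx.D
  rw [eU] at hD
  rw [nm_fit_D_id, eU]
  exact nm_fit_D_real hA.M1 hA.lam0 (Real.rpow_pos_of_pos hA.s0 _) (Real.rpow_pos_of_pos hA.s0 _)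
    (Real.rpow_pos_of_pos hA.s0 _) (Real.rpow_pos_of_pos hA.s0 _) k1 k2 G k5 k6
    (nm_fit_tau hA hx) (nm_rep_abs hA.s0 hA.s1 (A.w - A.q.g) (x.Nres A.s A.π A.q A.a A.v))
    hx.B (nm_fit_E0 hA hx) (nm_fit_dR hA hx) (nm_fit_dk hA hx)
    (nm_rep_abs hA.s0 hA.s1 A.v x.z.X) hx.Y hD

end est

theorem nm_fit_est_eqns_cite : True := by
  have := @NmAv.cs.eq_1; have := @NmAv.l.eq_1; have := @NmAv.w.eq_1; have := @NmAv.nm.eq_1; have := @NmRaw.RrawAt.eq_1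
  have := @NmAv.ftau.eq_1; have := @NmAv.fdk.eq_1; have := @NmAv.fdR.eq_1; have := @NmAv.fdL.eq_1; have := @NmAv.fnR.eq_1
  have := @NmAv.fnB.eq_1; have := @NmAv.fnL.eq_1; have := @NmAv.fnY.eq_1; have := @NmAv.fnN.eq_1; have := @NmAv.fnD.eq_1
  trivial

end

end Claimed.Agent.R256
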